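import Vale.Agent.P225.System.Trunc
import Vale.Agent.P225.Series.Defs
import Vale.Agent.P225.Path.Metric

/-!
P225, module F: entries of the path operator: a row meets finitely many points, the entries are
smooth in time and every derivative is bounded polynomially in the labels.
-/

noncomputable section

namespace Vale.Agent.P225.Boot

open Matrix SU2 Set Filter
open scoped ContDiff Topology

variable {G : Fin 3} {F : ∀ q, BlkMat q}

theorem idx_le (x : Pnt) (k : Fin 3) : lab x k ≤ ptSize x :=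
  Finset.single_le_sum (fun i _ => Nat.zero_le (lab x i)) (Finset.mem_univ k)

theorem pair_le (x : Pnt) (G : Fin 3) : lab x (G + 1) + lab x (G + 2) ≤ ptSize x := by
  simp only [ptSize, Fin.sum_univ_three]
  fin_cases G <;> simp only [Fin.zero_eta, Fin.mk_one, Fin.reduceFinMk, Fin.reduceAdd] <;> omega

theorem size_le_pair (x : Pnt) (G : Fin 3) : ptSize x ≤ 2 * (lab x (G + 1) + lab x (G + 2)) := by
  obtain ⟨-, h0, h1, h2⟩ := x.1.2
  simp only [ptSize, lab, Fin.sum_univ_three] at *
  fin_cases G <;> simp only [Fin.zero_eta, Fin.mk_one, Fin.reduceFinMk, Fin.reduceAdd] <;> omega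

/-- A point with bounded labels comes from a truncated point. -/
theorem exists_out {y : Pnt} {K : ℕ} (h : ∀ k, lab y k ≤ K) : ∃ w : PntK K, w.out = y :=
  ⟨⟨⟨fun k => ⟨lab y k, Nat.lt_succ_of_le (h k)⟩, y.1.2⟩, y.2⟩, rfl⟩

/-- Comparable sizes in a nonzero entry. -/
theorem size_of_entry {x y : Pnt} (h : gaugeEntry G F x y ≠ 0) : ptSize x ≤ 2 * ptSize y := by
  by_cases hs : SameBlk G x y
  · have := size_le_pair x G
    have := pair_le y G
    rw [← hs.1, ← hs.2.1] at this
    omega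
  · exact absurd (gaugeEntry_of_not hs) h

/-- A row as a sum over any sufficiently large truncation. -/
theorem rowSum_eq (c : Pnt → ℂ) (x : Pnt) {K : ℕ} (hK : lab x (G + 1) + lab x (G + 2) ≤ K) :
    rowSum G F c x = ∑ w : PntK K, gaugeEntry G F x w.out * c w.out := by
  classical
  have e : ∀ L : ℕ, ∑ w : PntK L, gaugeEntry G F x w.out * c w.out =
      ∑ y ∈ Finset.univ.image (PntK.out : PntK L → Pnt), gaugeEntry G F x y * c y := fun L => by
    rw [Finset.sum_image fun a _ b _ hab => PntK.out_injective hab]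
  rw [rowSum, e, e]
  refine Finset.sum_subset (fun y hy => ?_) fun y _ hy => ?_
  · obtain ⟨w, -, rfl⟩ := Finset.mem_image.1 hy
    obtain ⟨v, hv⟩ := exists_out (y := w.out) (K := K) fun k =>
      (Nat.lt_succ_iff.1 (w.1.1 k).2).trans hK
    exact Finset.mem_image.2 ⟨v, Finset.mem_univ _, hv⟩
  · rw [gaugeEntry_of_not fun hs => hy ?_, zero_mul]
    obtain ⟨v, hv⟩ := exists_out (blk_le hs le_rfl)
    exact Finset.mem_image.2 ⟨v, Finset.mem_univ _, hv⟩

open Classical in
/-- A row applied to a unit vector is an entry. -/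
theorem rowSum_single (x y : Pnt) :
    rowSum G F (fun z => if z = y then 1 else 0) x = gaugeEntry G F x y := by
  set K := max (lab x (G + 1) + lab x (G + 2)) (ptSize y)
  rw [rowSum_eq _ x (K := K) (le_max_left _ _)]
  obtain ⟨w, hw⟩ := exists_out (y := y) (K := K) fun k => (idx_le y k).trans (le_max_right _ _)
  rw [Finset.sum_eq_single w (fun v _ hv => by
    rw [if_neg fun h => hv (PntK.out_injective (h.trans hw.symm)), mul_zero]) (by simp),
    if_pos hw, mul_one, hw]

theorem card_pntK (K : ℕ) : Fintype.card (PntK K) ≤ (K + 1) ^ 6 := by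
  let e : PntK K → (Fin 3 → Fin (K + 1)) × (Fin 3 → Fin (K + 1)) := fun w =>
    (w.1.1, fun k => ⟨w.2 k, lt_of_lt_of_le (w.2 k).2
      (Nat.succ_le_succ (Nat.lt_succ_iff.1 (w.1.1 k).2))⟩)
  refine (Fintype.card_le_of_injective e ?_).trans_eq (by simp; ring)
  rintro ⟨⟨t, ht⟩, m⟩ ⟨⟨u, hu⟩, n⟩ h
  obtain rfl : t = u := congrArg Prod.fst h
  congr 1
  funext k
  have hk := congrArg Fin.val (congrFun (congrArg Prod.snd h) k)
  exact Fin.ext hk

theorem gen_bound (a : ℕ) (k : Fin 3) (i j : Fin (a + 1)) : ‖gen a k i j‖ ≤ (a : ℝ) + 1 := by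
  have h := congrArg (fun M => (M i i).re) (gen_casimir a)
  have hs : ∀ k j, gen a k j i = -star (gen a k i j) := fun k j => by
    have := congrFun (congrFun (gen_skew a k) j) i
    simp only [Matrix.conjTranspose_apply, Matrix.neg_apply] at this
    rw [this, neg_neg]
  simp only [Matrix.sum_apply, Matrix.mul_apply, hs, Complex.re_sum, mul_neg, Complex.star_def,
    Complex.neg_re, Complex.mul_conj, Complex.ofReal_re, Matrix.smul_apply, Matrix.one_apply_eq,
    smul_eq_mul, mul_one, Complex.normSq_eq_norm_sq, Finset.sum_neg_distrib, neg_inj] at h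
  have h1 : ‖gen a k i j‖ ^ 2 ≤ cas a := by
    rw [← h]
    exact le_trans (Finset.single_le_sum (f := fun j => ‖gen a k i j‖ ^ 2)
      (fun _ _ => sq_nonneg _) (Finset.mem_univ j))
      (Finset.single_le_sum (f := fun k => ∑ j, ‖gen a k i j‖ ^ 2)
        (fun _ _ => Finset.sum_nonneg fun _ _ => sq_nonneg _) (Finset.mem_univ k))
  exact le_of_pow_le_pow_left₀ two_ne_zero (by positivity) (h1.trans (by
    unfold cas; nlinarith [(Nat.cast_nonneg a : (0 : ℝ) ≤ a)]))

theorem opX_bound (p : ℕ × ℕ) (α : Bool × Fin 3) (u v : Fin (p.1 + 1) × Fin (p.2 + 1)) :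
    ‖opX p α u v‖ ≤ (p.1 : ℝ) + p.2 + 1 := by
  have h1 := gen_bound p.1
  have h2 := gen_bound p.2
  have : (0 : ℝ) ≤ p.1 := Nat.cast_nonneg _
  have : (0 : ℝ) ≤ p.2 := Nat.cast_nonneg _
  obtain ⟨⟨_ | _, k⟩, rfl⟩ : ∃ β, β = α := ⟨α, rfl⟩
  · simp only [opX, opS, Matrix.kroneckerMap_apply, Matrix.one_apply, Matrix.neg_apply,
      Matrix.transpose_apply]
    split_ifs
    · rw [mul_one, norm_neg]; linarith [h1 k v.1 u.1]
    · rw [mul_zero, norm_zero]; positivity
  · simp only [opX, opT, Matrix.kroneckerMap_apply, Matrix.one_apply, Matrix.neg_apply,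
      Matrix.transpose_apply]
    split_ifs
    · rw [one_mul, norm_neg]; linarith [h2 k v.2 u.2]
    · rw [zero_mul, norm_zero]; positivity

theorem coup_bound {t : Lbl} (ht : LblOK t) (G : Fin 3) (p q l : ℕ) : ‖coupN t G p q l‖ ≤ 1 := by
  unfold coupN
  split_ifs with h
  · set u : Fin (t (G + 1) + 1) × Fin (t (G + 2) + 1) := (⟨p, h.1⟩, ⟨q, h.2.1⟩)
    set m : Fin (t G + 1) := ⟨l, h.2.2⟩
    have h1 := congrArg (fun M => (M m m).re) (coup_isometry ht G)
    simp only [Matrix.mul_apply, Matrix.conjTranspose_apply, Matrix.one_apply_eq, Complex.re_sum,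
      Complex.star_def, mul_comm ((starRingEnd ℂ) _), Complex.mul_conj, Complex.ofReal_re,
      Complex.normSq_eq_norm_sq, Complex.one_re] at h1
    refine le_of_pow_le_pow_left₀ two_ne_zero zero_le_one ?_
    rw [one_pow, ← h1]
    exact Finset.single_le_sum (f := fun u => ‖coup t G u m‖ ^ 2)
      (fun _ _ => sq_nonneg _) (Finset.mem_univ u)
  · simp

theorem gaugeEntry_bound (G : Fin 3) (α β : Bool × Fin 3) (x y : Pnt) :
    ‖gaugeEntry G (fun q => opX q α * opX q β) x y‖ ≤ ((ptSize x : ℝ) + 1) ^ 8 := by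
  unfold gaugeEntry
  split_ifs
  · set p := blkLab G x
    set N := (ptSize x : ℝ) + 1
    have hp : (p.1 : ℝ) + p.2 + 1 ≤ N := by
      have : ((lab x (G + 1) + lab x (G + 2) : ℕ) : ℝ) ≤ ptSize x := Nat.cast_le.2 (pair_le x G)
      push_cast at this
      simp only [p, N]
      linarith
    have hN : 1 ≤ N := by simp [N]
    have hc : ((lab x (G + 1) + 1 : ℕ) : ℝ) * ((lab x (G + 2) + 1 : ℕ) : ℝ) ≤ N * N := by
      have h1 : (lab x (G + 1) : ℝ) ≤ ptSize x := Nat.cast_le.2 (idx_le x _)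
      have h2 : (lab x (G + 2) : ℝ) ≤ ptSize x := Nat.cast_le.2 (idx_le x _)
      push_cast
      exact mul_le_mul (by simp [N, h1]) (by simp [N, h2]) (by positivity) (by positivity)
    have hcard : ((Finset.univ : Finset (Fin (lab x (G + 1) + 1) × Fin (lab x (G + 2) + 1))).card
        : ℝ) ≤ N * N := by simpa using hc
    have hM : ∀ u v, ‖(opX p α * opX p β) u v‖ ≤ N ^ 4 := fun u v => by
      rw [Matrix.mul_apply]
      refine (norm_sum_le _ _).trans ?_
      refine (Finset.sum_le_card_nsmul _ _ (N * N) fun w _ => ?_).trans ?_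
      · rw [norm_mul]
        exact mul_le_mul ((opX_bound p α u w).trans hp) ((opX_bound p β w v).trans hp)
          (norm_nonneg _) (by linarith)
      · rw [nsmul_eq_mul]
        exact (mul_le_mul_of_nonneg_right hcard (by positivity)).trans_eq (by ring)
    refine (norm_sum_le _ _).trans ((Finset.sum_le_card_nsmul _ _ (N ^ 6) fun u _ => ?_).trans ?_)
    · refine (norm_sum_le _ _).trans ((Finset.sum_le_card_nsmul _ _ (N ^ 4) fun v _ => ?_).trans ?_)
      · rw [norm_mul, norm_mul, norm_star]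
        calc _ ≤ 1 * N ^ 4 * 1 := mul_le_mul (mul_le_mul (coup_bound x.1.2 _ _ _ _) (hM u v)
              (norm_nonneg _) zero_le_one) (coup_bound y.1.2 _ _ _ _) (norm_nonneg _) (by positivity)
          _ = _ := by ring
      · rw [nsmul_eq_mul]
        exact (mul_le_mul_of_nonneg_right hcard (by positivity)).trans_eq (by ring)
    · rw [nsmul_eq_mul]
      exact (mul_le_mul_of_nonneg_right hcard (by positivity)).trans_eq (by ring)
  · rw [norm_zero]; positivity

theorem gaugeEntry_linkOp (G : Fin 3) (Q : LinkMat) (x y : Pnt) :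
    gaugeEntry G (linkOp Q) x y = ∑ q : (Bool × Fin 3) × (Bool × Fin 3),
      (Q q.1 q.2 : ℂ) * -gaugeEntry G (fun p => opX p q.1 * opX p q.2) x y := by
  unfold gaugeEntry
  split_ifs
  · have hl : ∀ u v, linkOp Q (blkLab G x) u v = ∑ q : (Bool × Fin 3) × (Bool × Fin 3),
        (Q q.1 q.2 : ℂ) * -(opX (blkLab G x) q.1 * opX (blkLab G x) q.2) u v := fun u v => by
      rw [Fintype.sum_prod_type]
      simp only [linkOp, Matrix.neg_apply, Matrix.sum_apply, Matrix.smul_apply, smul_eq_mul,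
        mul_neg, Finset.sum_neg_distrib]
    simp only [hl, Finset.mul_sum, Finset.sum_mul, mul_neg, neg_mul, Finset.sum_neg_distrib,
      neg_inj]
    refine ((Finset.sum_congr rfl fun u _ => Finset.sum_comm).trans Finset.sum_comm).trans ?_
    exact Finset.sum_congr rfl fun q _ => Finset.sum_congr rfl fun u _ =>
      Finset.sum_congr rfl fun v _ => by ring
  · simp

variable {d : PathData} {r₂ β φ₀ : ℝ} {p : Param}

/-- Near every time one gauge and one smooth inverse Gram path give the rows. -/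
theorem exists_localRow (hd : d.Good r₂ β φ₀) (hp : InBox d p) (t : ℝ) :
    ∃ (G : Fin 3) (Q : ℝ → LinkMat) (U : Set ℝ), U ∈ 𝓝 t ∧ IsOpen U ∧
      (∀ s ∈ U, ∀ a b, ContDiffAt ℝ ∞ (fun u => Q u a b) s) ∧
      ∀ s ∈ U, ∀ (c : Pnt → ℂ) (x : Pnt),
        rowSum (pathGauge d s) (pathOp d p s) c x = rowSum G (linkOp (Q s)) c x := by
  obtain ⟨L⟩ := exists_localGauge hd hp t
  exact ⟨L.G, L.Q, L.U, L.U_nhds, L.isOpen, L.smooth, L.row_eq⟩

/-- Locally an entry is linear in a smooth inverse Gram path. -/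
theorem entry_eventually {G : Fin 3} {Q : ℝ → LinkMat} {U : Set ℝ} (hU : IsOpen U)
    (h : ∀ s ∈ U, ∀ (c : Pnt → ℂ) (x : Pnt),
      rowSum (pathGauge d s) (pathOp d p s) c x = rowSum G (linkOp (Q s)) c x)
    {s : ℝ} (hs : s ∈ U) (x y : Pnt) :
    (fun u => gaugeEntry (pathGauge d u) (pathOp d p u) x y) =ᶠ[𝓝 s]
      fun u => ∑ q : (Bool × Fin 3) × (Bool × Fin 3),
        (Q u q.1 q.2 : ℂ) * -gaugeEntry G (fun r => opX r q.1 * opX r q.2) x y := by
  classical
  filter_upwards [hU.mem_nhds hs] with u hu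
  rw [← gaugeEntry_linkOp, ← rowSum_single, ← rowSum_single]
  exact h u hu _ x

/-- The entries are smooth. -/
theorem entry_contDiff (hd : d.Good r₂ β φ₀) (hp : InBox d p) (x y : Pnt) :
    ContDiff ℝ ∞ fun t => gaugeEntry (pathGauge d t) (pathOp d p t) x y := by
  refine contDiff_iff_contDiffAt.2 fun t => ?_
  obtain ⟨G, Q, U, hU, ho, hsm, hrow⟩ := exists_localRow hd hp t
  have ht := mem_of_mem_nhds hU
  refine ContDiffAt.congr_of_eventuallyEq ?_ (entry_eventually ho hrow ht x y)
  exact ContDiffAt.sum fun q _ =>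
    (Complex.ofRealCLM.contDiff.contDiffAt.comp t (hsm t ht q.1 q.2)).mul contDiffAt_const

/-- All derivatives of the entries are bounded polynomially, uniformly on bounded intervals. -/
theorem entry_bound (hd : d.Good r₂ β φ₀) (hp : InBox d p) (a b : ℝ) (m : ℕ) :
    ∃ C : ℝ, 0 ≤ C ∧ ∀ x y : Pnt, ∀ t ∈ Icc a b,
      ‖iteratedDeriv m (fun u => gaugeEntry (pathGauge d u) (pathOp d p u) x y) t‖ ≤
        C * ((ptSize x : ℝ) + 1) ^ 8 := by
  refine (isCompact_Icc (a := a) (b := b)).induction_on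
    (p := fun S : Set ℝ => ∃ C : ℝ, 0 ≤ C ∧ ∀ x y : Pnt, ∀ t ∈ S,
      ‖iteratedDeriv m (fun u => gaugeEntry (pathGauge d u) (pathOp d p u) x y) t‖ ≤
        C * ((ptSize x : ℝ) + 1) ^ 8) ⟨0, le_rfl, by simp⟩
    (fun S T hST ⟨C, hC, h⟩ => ⟨C, hC, fun x y t ht => h x y t (hST ht)⟩)
    (fun S T ⟨C, hC, h⟩ ⟨D, hD, k⟩ => ⟨max C D, hC.trans (le_max_left _ _), fun x y t ht => ?_⟩)
    fun t _ => ?_
  · rcases ht with ht | ht
    · exact (h x y t ht).trans (by gcongr; exact le_max_left _ _)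
    · exact (k x y t ht).trans (by gcongr; exact le_max_right _ _)
  obtain ⟨G, Q, U, hU, ho, hsm, hrow⟩ := exists_localRow hd hp t
  obtain ⟨δ, hδ, hball⟩ := Metric.nhds_basis_closedBall.mem_iff.1 hU
  set B := Metric.closedBall t δ
  have hcont : ∀ q : (Bool × Fin 3) × (Bool × Fin 3),
      ContinuousOn (fun s => ‖iteratedDeriv m (fun u => Q u q.1 q.2) s‖) B := fun q => by
    have hon : ContDiffOn ℝ ∞ (fun u => Q u q.1 q.2) U := fun s hs =>
      (hsm s hs q.1 q.2).contDiffWithinAt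
    exact (((hon.continuousOn_iteratedDerivWithin (by exact_mod_cast le_top) ho.uniqueDiffOn).congr
      (iteratedDerivWithin_of_isOpen ho).symm).mono hball).norm
  choose D hD using fun q => ((isCompact_closedBall t δ).image_of_continuousOn (hcont q)).bddAbove
  refine ⟨B, mem_nhdsWithin_of_mem_nhds (Metric.closedBall_mem_nhds t hδ),
    ∑ q, max (D q) 0, Finset.sum_nonneg fun q _ => le_max_right _ _, fun x y s hs => ?_⟩
  have hsU := hball hs
  set L : (Bool × Fin 3) × (Bool × Fin 3) → (ℝ →L[ℝ] ℂ) := fun q =>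
    (ContinuousLinearMap.mul ℝ ℂ).flip
      (-gaugeEntry G (fun r => opX r q.1 * opX r q.2) x y) |>.comp Complex.ofRealCLM with hL
  have hterm : ∀ q, ContDiffAt ℝ (m : ℕ) (fun u => L q (Q u q.1 q.2)) s := fun q =>
    (L q).contDiff.contDiffAt.comp s ((hsm s hsU q.1 q.2).of_le (by exact_mod_cast le_top))
  rw [(entry_eventually ho hrow hsU x y).iteratedDeriv_eq m]
  show ‖iteratedDeriv m (fun u => ∑ q, L q (Q u q.1 q.2)) s‖ ≤ _
  rw [iteratedDeriv_fun_sum fun q _ => hterm q, Finset.sum_mul]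
  refine (norm_sum_le _ _).trans (Finset.sum_le_sum fun q _ => ?_)
  rw [← norm_iteratedFDeriv_eq_norm_iteratedDeriv]
  refine ((L q).norm_iteratedFDeriv_comp_left (f := fun u => Q u q.1 q.2)
    ((hsm s hsU q.1 q.2).of_le (m := (m : ℕ)) (by exact_mod_cast le_top)) le_rfl).trans ?_
  rw [norm_iteratedFDeriv_eq_norm_iteratedDeriv, mul_comm]
  refine mul_le_mul ((hD q (mem_image_of_mem _ hs)).trans (le_max_left _ _)) ?_ (norm_nonneg _)
    (le_max_right _ _)
  refine ContinuousLinearMap.opNorm_le_bound _ (by positivity) fun r => ?_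
  simp only [hL, ContinuousLinearMap.comp_apply, ContinuousLinearMap.flip_apply,
    ContinuousLinearMap.mul_apply', Complex.ofRealCLM_apply, norm_mul, norm_neg, Complex.norm_real]
  rw [mul_comm]
  exact mul_le_mul_of_nonneg_right (gaugeEntry_bound G q.1 q.2 x y) (norm_nonneg _)

end Vale.Agent.P225.Boot
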